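import Vale.Agent.P181.GN.H674.Let
import Vale.Agent.P181.GN.H605.Mid

set_option autoImplicit false

/-!
# P181, GN (helper879): the half Q2b of [Q2], from letters to columns
-/

open MvPolynomial

namespace Vale.Agent.P181.GN.H879

open Vale.Agent.P181.GN
open Vale.Agent.P181.GN.H605 (DD0 DD gLL LL Q2b)
open Vale.Agent.P181.GN.H674 (LR lop lop_X mv dw E Dl pD pD_apply It It_sy Deg coeff_It It_inj
  It_row It_pD)
open Vale.Agent.P181.DH.H674 (col cont)
open Vale.Agent.P181.T4 (HW rowOp mem_HW finiteDimensional_HW)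

variable {k : ℕ}

/-- A letter as a function on the rows. -/
def lc (p : Lt k) : Fin (k + 1) → ℕ := Fin.cons p.1 p.2

lemma lc_inj : Function.Injective (lc (k := k)) := by
  rintro ⟨a, b⟩ ⟨c, d⟩ h
  have h' := Fin.cons_injective2 (α := fun _ => ℕ) h
  exact Prod.ext h'.1 h'.2

/-- The renaming of the letters. -/
noncomputable def rn : Po k →ₐ[ℂ] LR (k + 1) := rename lc

lemma rn_X (p : Lt k) : rn (X p) = X (lc p) := rename_X _ _

lemma rn_inj : Function.Injective (rn (k := k)) := rename_injective _ lc_inj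

/-- Two operators along `rn`. -/
lemma rn_der (D : Derivation ℂ (Po k) (Po k)) (D' : Derivation ℂ (LR (k + 1)) (LR (k + 1)))
    (h : ∀ p, D' (rn (X p)) = rn (D (X p))) (G : Po k) : D' (rn G) = rn (D G) := by
  induction G using MvPolynomial.induction_on with
  | C a =>
    have h1 : (C a : Po k) = algebraMap ℂ _ a := rfl
    rw [h1, AlgHom.commutes, Derivation.map_algebraMap, Derivation.map_algebraMap, map_zero]
  | add p q hp hq => rw [map_add, map_add, map_add, map_add, hp, hq]
  | mul_X p i hp =>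
    rw [map_mul, Derivation.leibniz, Derivation.leibniz, map_add, hp, h, smul_eq_mul,
      smul_eq_mul, smul_eq_mul, smul_eq_mul, map_mul, map_mul]

lemma E_rn_succ (r i : Fin k) (G : Po k) : E r.succ i.succ (rn G) = rn (EU r i G) := by
  refine rn_der _ _ (fun p => ?_) G
  rw [rn_X, E, lop_X, EU, mkDerivation_X, map_smul, rn_X]
  congr 2
  funext j
  refine Fin.cases ?_ (fun j => ?_) j
  · simp [lc, mv, Pi.single_apply, Fin.succ_ne_zero]
  · simp [lc, mv, Pi.single_apply]

lemma E_rn_zero (i : Fin k) (G : Po k) : E 0 i.succ (rn G) = rn (E1 i G) := by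
  refine rn_der _ _ (fun p => ?_) G
  rw [rn_X, E, lop_X, E1, mkDerivation_X, map_smul, rn_X]
  congr 2
  funext j
  refine Fin.cases ?_ (fun j => ?_) j
  · simp [lc, mv, Pi.single_apply, Fin.succ_ne_zero]
  · simp [lc, mv, Pi.single_apply, Fin.succ_ne_zero]

/-- A translation and its cut. -/
lemma Dl_rn (i : Fin (k + 1)) (D : Derivation ℂ (Po k) (Po k))
    (h1 : ∀ p, sz p ≤ 1 → D (X p) = 0)
    (h2 : ∀ p, ¬ sz p ≤ 1 → rn (D (X p)) = (lc p i : ℂ) • X (dw i (lc p))) (G : Po k) :
    Dl i (rn G) = rn (D G) + X 0 * pderiv (Pi.single i 1) (rn G) := by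
  have key : ∀ p : Lt k, Dl i (rn (X p)) = rn (D (X p)) + X 0 * pderiv (Pi.single i 1)
      (rn (X p)) := by
    intro p
    rw [rn_X, Dl, lop_X]
    by_cases hp : sz p ≤ 1
    · rw [h1 p hp, map_zero, zero_add]
      have hs : ∑ j, lc p j = sz p := by
        rw [Fin.sum_univ_succ]
        rfl
      by_cases hpi : lc p = Pi.single i 1
      · rw [hpi, pderiv_X_self, mul_one, Pi.single_eq_same]
        have : dw i (Pi.single i 1 : Fin (k + 1) → ℕ) = 0 := by
          unfold dw
          exact tsub_self _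
        rw [this, Nat.cast_one, one_smul]
      · have hz : lc p i = 0 := by
          by_contra hne
          apply hpi
          funext j
          by_cases hj : j = i
          · subst hj
            rw [Pi.single_eq_same]
            have := Finset.single_le_sum (f := lc p) (fun _ _ => Nat.zero_le _)
              (Finset.mem_univ j)
            omega
          · rw [Pi.single_eq_of_ne hj]
            have h3 : lc p j + lc p i ≤ ∑ l, lc p l := by
              classical
              have : ∑ l ∈ ({j, i} : Finset (Fin (k + 1))), lc p l ≤ ∑ l, lc p l :=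
                Finset.sum_le_sum_of_subset (Finset.subset_univ _)
              rwa [Finset.sum_pair hj] at this
            omega
        rw [hz, Nat.cast_zero, zero_smul, pderiv_X_of_ne hpi, mul_zero]
    · rw [h2 p hp]
      have hpi : lc p ≠ Pi.single i 1 := by
        intro h
        apply hp
        have hs : ∑ j, lc p j = sz p := by
          rw [Fin.sum_univ_succ]
          rfl
        rw [← hs, h]
        simp
      rw [pderiv_X_of_ne hpi, mul_zero, add_zero]
  let D' : Derivation ℂ (LR (k + 1)) (LR (k + 1)) :=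
    Dl i - (X 0 : LR (k + 1)) • pderiv (Pi.single i 1)
  have h3 : ∀ G : Po k, D' (rn G) = rn (D G) := by
    refine rn_der _ _ fun p => ?_
    rw [Derivation.sub_apply, Derivation.smul_apply, smul_eq_mul, key, add_sub_cancel_right]
  have h4 := h3 G
  rw [Derivation.sub_apply, Derivation.smul_apply, smul_eq_mul, sub_eq_iff_eq_add] at h4
  exact h4

lemma lc_dn (p : Lt k) (i : Fin k) : lc (p.1, p.2 - Pi.single i 1) = dw i.succ (lc p) := by
  funext j
  refine Fin.cases ?_ (fun j => ?_) j
  · simp [lc, dw, Pi.single_apply, Fin.succ_ne_zero]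
  · simp [lc, dw, Pi.single_apply]

lemma lc_dn0 (p : Lt k) : lc (p.1 - 1, p.2) = dw 0 (lc p) := by
  funext j
  refine Fin.cases ?_ (fun j => ?_) j
  · simp [lc, dw]
  · simp [lc, dw, Pi.single_apply, Fin.succ_ne_zero]

lemma Dl_succ (i : Fin k) (G : Po k) :
    Dl i.succ (rn G) = rn (DD i G) + X 0 * pderiv (Pi.single i.succ 1) (rn G) := by
  refine Dl_rn i.succ (DD i) (fun p hp => ?_) (fun p hp => ?_) G
  · rw [DD, mkDerivation_X, if_pos hp]
  · rw [DD, mkDerivation_X, if_neg hp, map_smul, rn_X, lc_dn]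
    rfl

lemma Dl_zero (G : Po k) :
    Dl 0 (rn G) = rn (DD0 G) + X 0 * pderiv (Pi.single 0 1) (rn G) := by
  refine Dl_rn 0 DD0 (fun p hp => ?_) (fun p hp => ?_) G
  · rw [DD0, mkDerivation_X, if_pos hp]
  · rw [DD0, mkDerivation_X, if_neg hp, map_smul, rn_X, lc_dn0]
    rfl

lemma mem_LL {tau : Fin k → ℕ} {y m0 : ℕ} {G : Po k} : G ∈ LL tau y m0 ↔
    ((∀ v, coeff v G ≠ 0 → gLL tau y m0 v) ∧ ∀ r i : Fin k, r < i → EU r i G = 0) ∧
      (∀ i : Fin k, E1 i G = 0) ∧ DD0 G = 0 ∧ ∀ i : Fin k, DD i G = 0 := by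
  unfold LL
  rw [Submodule.mem_inf, Submodule.mem_inf, Submodule.mem_inf, Submodule.mem_iInf,
    Submodule.mem_iInf, mem_UH]
  rfl

/-- Sums over the letters of a content. -/
lemma cont_sum {m : ℕ} {σ : Type} [Fintype σ] (v : Fin m × σ →₀ ℕ) (q : (Fin m → ℕ) → ℕ) :
    (cont v).sum (fun α n => n * q α) = ∑ c, q (col v c) := by
  classical
  have h : ∀ s : Finset σ, (∑ c ∈ s, Finsupp.single (col v c) 1 : (Fin m → ℕ) →₀ ℕ).sum
      (fun α n => n * q α) = ∑ c ∈ s, q (col v c) := by
    intro s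
    rw [← Finsupp.sum_finsetSum_index (fun _ => zero_mul _) (fun _ _ _ => add_mul _ _ _)]
    refine Finset.sum_congr rfl fun c _ => ?_
    rw [Finsupp.sum_single_index (zero_mul _), one_mul]
  exact h _

lemma map_sum_idx (u : Lt k →₀ ℕ) (q : (Fin (k + 1) → ℕ) → ℕ) :
    (u.mapDomain lc).sum (fun α n => n * q α) = u.sum fun p n => n * q (lc p) :=
  Finsupp.sum_mapDomain_index (fun _ => zero_mul _) (fun _ _ _ => add_mul _ _ _)

theorem q2b : Q2b := by
  intro k y m0 tau
  classical
  have hco : ∀ G ∈ LL tau y m0, ∀ K, coeff K (rn G) ≠ 0 → ∃ u, u.mapDomain lc = K ∧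
      gLL tau y m0 u := by
    intro G hG K hK
    obtain ⟨u, hu, hu'⟩ := coeff_rename_ne_zero _ _ _ hK
    exact ⟨u, hu, (mem_LL.1 hG).1.1 u hu'⟩
  have hdeg : ∀ G ∈ LL tau y m0, Deg y (rn G) := by
    intro G hG K hK
    obtain ⟨u, rfl, hu⟩ := hco G hG K hK
    have h1 := map_sum_idx u fun _ => 1
    simp only [mul_one] at h1
    rw [h1]
    exact hu.2.1
  have hmem : ∀ G ∈ LL tau y m0, It (k + 1) y (rn G) ∈ EE y (k + 1) (Fin.cons m0 tau) := by
    intro G hG
    have hd := hdeg G hG
    have hG' := mem_LL.1 hG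
    have hK0 : ∀ (i : Fin (k + 1)) (K : (Fin (k + 1) → ℕ) →₀ ℕ), K 0 = 0 →
        coeff K (Dl i (rn G)) = 0 := by
      intro i K hK
      have h1 : ∀ P : LR (k + 1), coeff K (X 0 * P) = 0 := by
        intro P
        rw [coeff_X_mul', if_neg]
        rw [Finsupp.mem_support_iff, not_not]
        exact hK
      refine Fin.cases ?_ (fun i => ?_) i
      · rw [Dl_zero, hG'.2.2.1, map_zero, zero_add, h1]
      · rw [Dl_succ, hG'.2.2.2 i, map_zero, zero_add, h1]
    refine ⟨⟨fun v hv i => ?_, fun s i hsi => ?_⟩, It_sy _, fun v hv c => ?_, fun i v hv => ?_⟩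
    · obtain ⟨u, hu, hu'⟩ := hco G hG _ (coeff_It hd hv)
      have h1 := cont_sum v fun α => α i
      rw [← hu, map_sum_idx] at h1
      change ∑ c, col v c i = _
      rw [← h1]
      refine Fin.cases ?_ (fun i => ?_) i
      · exact hu'.2.2.1
      · exact hu'.2.2.2 i
    · refine It_row hd ?_
      revert hsi
      refine Fin.cases (fun h => absurd h (Fin.not_lt_zero s)) (fun i => ?_) i
      refine Fin.cases (fun _ => ?_) (fun s h => ?_) s
      · rw [E_rn_zero, hG'.2.1 i, map_zero]
      · rw [E_rn_succ, hG'.1.2 s i (Fin.succ_lt_succ_iff.1 h), map_zero]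
    · obtain ⟨u, hu, hu'⟩ := hco G hG _ (coeff_It hd hv)
      have h1 : col v c ∈ (cont v).support := by
        rw [Finsupp.mem_support_iff, Vale.Agent.P181.DH.H674.cont_apply]
        exact Finset.card_ne_zero_of_mem (Finset.mem_filter.2 ⟨Finset.mem_univ c, rfl⟩)
      rw [← hu] at h1
      have h2 := Finsupp.mapDomain_support h1
      rw [Finset.mem_image] at h2
      obtain ⟨p, hp, hp'⟩ := h2
      have h3 := hu'.1 p hp
      have h4 : ∑ i, v (i, c) = sz p := by
        change ∑ i, col v c i = _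
        rw [← hp', Fin.sum_univ_succ]
        rfl
      rw [h4]
      exact h3
    · rw [← pD_apply]
      refine It_pD hd (hK0 i) v fun c hc => ?_
      have h1 := hv c
      have h2 : ∑ i', v (i', c) = 0 := Finset.sum_eq_zero fun i' _ => congrFun hc i'
      omega
  have : FiniteDimensional ℂ (EE y (k + 1) (Fin.cons m0 tau)) :=
    Submodule.finiteDimensional_of_le (S₂ := HW (k + 1) (Fin y) (Fin.cons m0 tau)) fun _ h => h.1
  refine LinearMap.finrank_le_finrank_of_injective
    (f := ((It (k + 1) y).comp (rn (k := k)).toLinearMap).restrict hmem) ?_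
  rw [← LinearMap.ker_eq_bot, LinearMap.ker_eq_bot']
  rintro ⟨G, hG⟩ h
  have h1 : It (k + 1) y (rn G) = 0 := congrArg Subtype.val h
  have h2 := It_inj (hdeg G hG) h1
  refine Subtype.ext (rn_inj ?_)
  rw [h2]
  exact (map_zero _).symm

end Vale.Agent.P181.GN.H879
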